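import Vale.Agent.P262.Transfer

/-!
# The Euclidean Steinitz constant is at most a constant times the square root of `d log (d+1)`
-/

namespace Vale.Agent.Results.P262.SteinitzSqrtLog

open Finset
open scoped ENNReal

/-- The least value, over all orderings `π` of the family, of the largest norm of a partial
sum `v (π 0) + ... + v (π (k-1))`, `0 ≤ k ≤ N`. -/
noncomputable def beta {d N : ℕ} (v : Fin N → EuclideanSpace ℝ (Fin d)) : ℝ≥0∞ :=
  ⨅ π : Equiv.Perm (Fin N), ⨆ k : Fin (N + 1),
    ENNReal.ofReal ‖∑ i ∈ univ.filter (fun i : Fin N => (i : ℕ) < (k : ℕ)), v (π i)‖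

/-- The Euclidean Steinitz constant `S_2(d)`: the supremum of `beta` over all finite zero-sum
families, of every length `N`, in the Euclidean unit ball of dimension `d`. -/
noncomputable def steinitz (d : ℕ) : ℝ≥0∞ :=
  ⨆ (N : ℕ) (v : Fin N → EuclideanSpace ℝ (Fin d)) (_ : ∀ i, ‖v i‖ ≤ 1)
    (_ : ∑ i, v i = 0), beta v

/-- `S_2(d) ≤ C √(d log (d + 1))` with `C = 26458`, for every dimension `d ≥ 1`. -/
theorem result : ∀ d : ℕ, 1 ≤ d →
    steinitz d ≤ ENNReal.ofReal (26458 * Real.sqrt (d * Real.log (d + 1))) := by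
  intro d hd
  unfold steinitz
  refine iSup_le fun N => iSup_le fun v => iSup_le fun hv => iSup_le fun hsum => ?_
  obtain ⟨π, hπ⟩ := Vale.Agent.P262.steinitz_order hd v hv hsum
  unfold beta
  refine (iInf_le _ π).trans (iSup_le fun k => ?_)
  exact ENNReal.ofReal_le_ofReal (hπ (k : ℕ) (by have := k.2; omega))

end Vale.Agent.Results.P262.SteinitzSqrtLog
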